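import Claimed.Prelude.Def_0091

/-!
# Row 51 (matroid prophet / one sample): basic facts about the C0091 definitions

Everything here is unconditional.
-/

set_option autoImplicit false

namespace Claimed.Agent.R051

open MeasureTheory ProbabilityTheory
open Claims.C0091.MatroidProphet
open scoped BigOperators

variable {n bits : ℕ}

/-- The hidden-vector challenge with an arbitrary constant `c`. -/
def HiddenCrux (c : ℝ) : Prop :=
  ∀ (n : ℕ) (M : Matroid (Fin n)), M.E = Set.univ →
    ∃ (bits : ℕ) (ν : Measure (Seed bits)), IsProbabilityMeasure ν ∧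
    ∃ (A : HiddenRule n bits),
      (∀ (w : Weights n), (∀ e, 0 ≤ w e) →
        ∀ (r : Seed bits) (π : ArrivalOrder n) (t : ℕ),
          M.Indep (hiddenAcceptedThrough A r w π t : Set (Fin n))) ∧
      ∀ (w : Weights n), (∀ e, 0 ≤ w e) →
        c * optimum M w ≤ ∫ r, hiddenWorstReward A w r ∂ν

theorem optimum_nonneg (M : Matroid (Fin n)) (w : Weights n) : 0 ≤ optimum M w := by
  classical
  unfold optimum
  refine le_trans ?_ (Finset.le_sup' _ (Finset.mem_univ (∅ : Finset (Fin n))))
  simp

theorem sum_le_optimum (M : Matroid (Fin n)) (w : Weights n) (I : Finset (Fin n))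
    (hI : M.Indep (I : Set (Fin n))) : ∑ e ∈ I, w e ≤ optimum M w := by
  classical
  unfold optimum
  refine le_trans ?_ (Finset.le_sup' _ (Finset.mem_univ I))
  simp [hI]

theorem exists_optimum_eq (M : Matroid (Fin n)) (w : Weights n) :
    ∃ I : Finset (Fin n), M.Indep (I : Set (Fin n)) ∧ optimum M w = ∑ e ∈ I, w e := by
  classical
  obtain ⟨I, -, hI⟩ := Finset.exists_mem_eq_sup' (Finset.univ_nonempty)
    (fun I : Finset (Fin n) => if M.Indep (I : Set (Fin n)) then ∑ e ∈ I, w e else 0)
  by_cases h : M.Indep (I : Set (Fin n))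
  · refine ⟨I, h, ?_⟩
    unfold optimum
    rw [hI, if_pos h]
  · refine ⟨∅, by simp, ?_⟩
    unfold optimum
    rw [hI, if_neg h]
    simp

theorem HiddenCrux.mono {c c' : ℝ} (h : HiddenCrux c) (hc : c' ≤ c) : HiddenCrux c' := by
  intro n M hE
  obtain ⟨bits, ν, hν, A, hf, hv⟩ := h n M hE
  refine ⟨bits, ν, hν, A, hf, fun w hw => le_trans ?_ (hv w hw)⟩
  exact mul_le_mul_of_nonneg_right hc (optimum_nonneg M w)

theorem hiddenCrux_of_challenge (h : HiddenVectorChallenge) : HiddenCrux ((2 : ℝ) ^ 293)⁻¹ := h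

theorem hiddenCrux_310_of_challenge (h : HiddenVectorChallenge) :
    HiddenCrux ((2 : ℝ) ^ 310)⁻¹ := by
  refine (hiddenCrux_of_challenge h).mono ?_
  apply inv_anti₀ (by positivity)
  exact pow_le_pow_right₀ (by norm_num) (by norm_num)

end Claimed.Agent.R051
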