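import Claimed.Agent.R051.Basic

/-!
# Row 51: the hybrid rule (hidden rule ⇒ one-sample online rule), deterministic part
-/

set_option autoImplicit false

namespace Claimed.Agent.R051

open MeasureTheory ProbabilityTheory
open Claims.C0091.MatroidProphet
open scoped BigOperators

variable {n bits : ℕ}

/-- The hybrid weight vector: sample value on the mask, true value off the mask. -/
def hybrid (m : Finset (Fin n)) (s v : Weights n) : Weights n :=
  fun e => if e ∈ m then s e else v e

/-- The history in which the values of masked elements are replaced by their samples. -/
def hybridHistory (m : Finset (Fin n)) (s : Weights n) {k : Fin n}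
    (h : History n k) : History n k :=
  fun j => ((h j).1, if (h j).1 ∈ m then s (h j).1 else (h j).2)

/-- The decision function of the one-sample rule built from a hidden rule. -/
noncomputable def hybridDecide (A : HiddenRule n bits) (k : Fin n) (r : Seed bits)
    (s : Weights n) (h : History n k) : Bool :=
  if (h (Fin.last k.val)).1 ∈ A.mask r then false
    else A.core.decide k r (observed A r s) (hybridHistory (A.mask r) s h)

theorem hybrid_nonneg (m : Finset (Fin n)) {s v : Weights n} (hs : ∀ e, 0 ≤ s e)
    (hv : ∀ e, 0 ≤ v e) (e : Fin n) : 0 ≤ hybrid m s v e := by
  unfold hybrid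
  split_ifs
  · exact hs e
  · exact hv e

theorem hybrid_self (m : Finset (Fin n)) (w : Weights n) : hybrid m w w = w := by
  funext e
  simp [hybrid]

theorem hybrid_apply_of_notMem (m : Finset (Fin n)) (s v : Weights n) {e : Fin n}
    (he : e ∉ m) : hybrid m s v e = v e := by
  simp [hybrid, he]

theorem observed_hybrid (A : HiddenRule n bits) (r : Seed bits) (s v : Weights n) :
    observed A r (hybrid (A.mask r) s v) = observed A r s := by
  funext e
  unfold observed hybrid
  by_cases he : e ∈ A.mask r <;> simp [he]

theorem hybridHistory_history (m : Finset (Fin n)) (s v : Weights n) (π : ArrivalOrder n)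
    (k : Fin n) : hybridHistory m s (history v π k) = history (hybrid m s v) π k := by
  funext j
  rfl

theorem prefixIndex_last (k : Fin n) : prefixIndex k (Fin.last k.val) = k := by
  ext
  simp [prefixIndex]

theorem hybridDecide_history (A : HiddenRule n bits) (k : Fin n) (r : Seed bits)
    (s v : Weights n) (π : ArrivalOrder n) :
    hybridDecide A k r s (history v π k) =
      if π k ∈ A.mask r then false
      else decisionAt A.core r (observed A r (hybrid (A.mask r) s v))
        (hybrid (A.mask r) s v) π k := by
  unfold hybridDecide decisionAt
  rw [hybridHistory_history, observed_hybrid]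
  have : (history v π k (Fin.last k.val)).1 = π k := by
    simp [history, prefixIndex_last]
  rw [this]

end Claimed.Agent.R051
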