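import Claimed.Agent.R051.Law

/-!
# Row 51: the integral chain  `c * E[opt V] ≤ E[reward]`
-/

set_option autoImplicit false
set_option linter.unusedSectionVars false

namespace Claimed.Agent.R051

open MeasureTheory ProbabilityTheory
open Claims.C0091.MatroidProphet
open scoped BigOperators

universe u

variable {n bits : ℕ}

section chain

variable {Ω : Type u} [MeasurableSpace Ω] (μ : Measure Ω) [IsProbabilityMeasure μ]
  (M : Matroid (Fin n)) (A : HiddenRule n bits)
  (hf : ∀ (w : Weights n), (∀ e, 0 ≤ w e) →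
        ∀ (r : Seed bits) (π : ArrivalOrder n) (t : ℕ),
          M.Indep (hiddenAcceptedThrough A r w π t : Set (Fin n)))
  (S V : Ω → Weights n) (R : Ω → Seed bits)

include hf in
theorem integrable_reward_hybridRule (hS : Measurable S) (hV : Measurable V) (hR : Measurable R)
    (hS0 : ∀ᵐ ω ∂μ, ∀ e, 0 ≤ S ω e) (hV0 : ∀ᵐ ω ∂μ, ∀ e, 0 ≤ V ω e)
    (hopt : Integrable (fun ω => optimum M (V ω)) μ)
    (π : Ω → ArrivalOrder n) (hπ : Measurable π) :
    Integrable (fun ω => reward (hybridRule A) (R ω) (S ω) (V ω) (π ω)) μ := by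
  have hm : Measurable (fun ω => reward (hybridRule A) (R ω) (S ω) (V ω) (π ω)) := by
    have h : Measurable (fun ω => (((R ω, (S ω, V ω)), π ω) :
        (Seed bits × (Weights n × Weights n)) × ArrivalOrder n)) :=
      (hR.prodMk (hS.prodMk hV)).prodMk hπ
    exact (measurable_reward (hybridRule A)).comp h
  refine Integrable.mono' hopt hm.aestronglyMeasurable ?_
  filter_upwards [hS0, hV0] with ω h1 h2
  have hfeas := feasible_hybridRule M A hf (R ω) (S ω) (V ω) (π ω) n h1 h2
  have hle : reward (hybridRule A) (R ω) (S ω) (V ω) (π ω) ≤ optimum M (V ω) :=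
    sum_le_optimum M (V ω) _ hfeas
  have hge : 0 ≤ reward (hybridRule A) (R ω) (S ω) (V ω) (π ω) :=
    Finset.sum_nonneg (fun e _ => h2 e)
  rw [Real.norm_eq_abs, abs_of_nonneg hge]
  exact hle

include hf in
theorem integrable_worst_V (hV : Measurable V)
    (hV0 : ∀ᵐ ω ∂μ, ∀ e, 0 ≤ V ω e)
    (hopt : Integrable (fun ω => optimum M (V ω)) μ) (r : Seed bits) :
    Integrable (fun ω => hiddenWorstReward A (V ω) r) μ := by
  have hm : Measurable (fun ω => hiddenWorstReward A (V ω) r) :=
    (measurable_hiddenWorstReward A r).comp hV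
  refine Integrable.mono' hopt hm.aestronglyMeasurable ?_
  filter_upwards [hV0] with ω h2
  rw [Real.norm_eq_abs, abs_of_nonneg (hiddenWorstReward_nonneg A r h2)]
  exact hiddenWorstReward_le_optimum M A hf r h2

theorem measurable_hybrid_comp (hS : Measurable S) (hV : Measurable V) (m : Finset (Fin n)) :
    Measurable (fun ω => hybrid m (S ω) (V ω)) :=
  (measurable_hybrid_fixed m).comp (hS.prodMk hV)

include hf in
theorem integrable_worst_hybrid (hS : Measurable S) (hV : Measurable V)
    (hV0 : ∀ᵐ ω ∂μ, ∀ e, 0 ≤ V ω e)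
    (hind : iIndepFun (pairedCoordinates S V) μ)
    (hlaw : ∀ e, Measure.map (fun ω => S ω e) μ = Measure.map (fun ω => V ω e) μ)
    (hopt : Integrable (fun ω => optimum M (V ω)) μ) (r : Seed bits) :
    Integrable (fun ω => hiddenWorstReward A (hybrid (A.mask r) (S ω) (V ω)) r) μ := by
  have h1 := integrable_worst_V μ M A hf V hV hV0 hopt r
  have hg := (measurable_hiddenWorstReward A r)
  have h2 : Integrable (fun w => hiddenWorstReward A w r) (Measure.map V μ) :=
    (integrable_map_measure hg.aestronglyMeasurable hV.aemeasurable).2 h1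
  rw [← map_hybrid_eq μ S V hS hV hind hlaw (A.mask r)] at h2
  exact (integrable_map_measure hg.aestronglyMeasurable
    (measurable_hybrid_comp S V hS hV _).aemeasurable).1 h2

theorem integral_worst_hybrid (hS : Measurable S) (hV : Measurable V)
    (hind : iIndepFun (pairedCoordinates S V) μ)
    (hlaw : ∀ e, Measure.map (fun ω => S ω e) μ = Measure.map (fun ω => V ω e) μ)
    (r : Seed bits) :
    ∫ ω, hiddenWorstReward A (hybrid (A.mask r) (S ω) (V ω)) r ∂μ =
      ∫ ω, hiddenWorstReward A (V ω) r ∂μ := by
  have hg := (measurable_hiddenWorstReward A r)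
  rw [← integral_map (φ := V) hV.aemeasurable (f := fun w => hiddenWorstReward A w r)
      hg.aestronglyMeasurable,
    ← integral_map (φ := fun ω => hybrid (A.mask r) (S ω) (V ω))
      (measurable_hybrid_comp S V hS hV _).aemeasurable
      (f := fun w => hiddenWorstReward A w r) hg.aestronglyMeasurable,
    map_hybrid_eq μ S V hS hV hind hlaw (A.mask r)]

end chain

end Claimed.Agent.R051
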