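import Claimed.Agent.R051.Meas

/-!
# Row 51: the hybrid vector has the law of the true vector
-/

set_option autoImplicit false

namespace Claimed.Agent.R051

open MeasureTheory ProbabilityTheory
open Claims.C0091.MatroidProphet
open scoped BigOperators

universe u

variable {n bits : ℕ}

theorem measurable_hybrid_fixed (m : Finset (Fin n)) :
    Measurable (fun p : Weights n × Weights n => hybrid m p.1 p.2) := by
  refine measurable_pi_lambda _ (fun e => ?_)
  unfold hybrid
  by_cases he : e ∈ m
  · simp only [he, if_true]
    exact (measurable_pi_apply e).comp measurable_fst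
  · simp only [he, if_false]
    exact (measurable_pi_apply e).comp measurable_snd

theorem map_hybrid_eq_pi {Ω : Type u} [MeasurableSpace Ω] (μ : Measure Ω)
    [IsProbabilityMeasure μ] (S V : Ω → Weights n) (hS : Measurable S) (hV : Measurable V)
    (hind : iIndepFun (pairedCoordinates S V) μ)
    (hlaw : ∀ e, Measure.map (fun ω => S ω e) μ = Measure.map (fun ω => V ω e) μ)
    (m : Finset (Fin n)) :
    Measure.map (fun ω => hybrid m (S ω) (V ω)) μ =
      Measure.pi (fun e => Measure.map (fun ω => V ω e) μ) := by
  have hg : Function.Injective (fun e : Fin n => ((e, decide (e ∈ m)) : Fin n × Bool)) := by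
    intro a b hab
    exact (Prod.ext_iff.1 hab).1
  have h1 := hind.precomp hg
  have hmeas : ∀ e : Fin n,
      AEMeasurable (pairedCoordinates S V ((e, decide (e ∈ m)) : Fin n × Bool)) μ := by
    intro e
    unfold pairedCoordinates
    by_cases he : e ∈ m
    · simp only [he, decide_true, if_true]
      exact ((measurable_pi_apply e).comp hS).aemeasurable
    · simp only [he, decide_false, Bool.false_eq_true, if_false]
      exact ((measurable_pi_apply e).comp hV).aemeasurable
  have h2 := (iIndepFun_iff_map_fun_eq_pi_map hmeas).1 h1
  have e1 : (fun ω => hybrid m (S ω) (V ω)) =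
      (fun ω (e : Fin n) => pairedCoordinates S V ((e, decide (e ∈ m)) : Fin n × Bool) ω) := by
    funext ω e
    unfold hybrid pairedCoordinates
    by_cases he : e ∈ m <;> simp [he]
  rw [e1, h2]
  congr 1
  funext e
  unfold pairedCoordinates
  by_cases he : e ∈ m
  · simpa [he] using hlaw e
  · simp [he]

theorem map_hybrid_eq {Ω : Type u} [MeasurableSpace Ω] (μ : Measure Ω)
    [IsProbabilityMeasure μ] (S V : Ω → Weights n) (hS : Measurable S) (hV : Measurable V)
    (hind : iIndepFun (pairedCoordinates S V) μ)
    (hlaw : ∀ e, Measure.map (fun ω => S ω e) μ = Measure.map (fun ω => V ω e) μ)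
    (m : Finset (Fin n)) :
    Measure.map (fun ω => hybrid m (S ω) (V ω)) μ = Measure.map V μ := by
  rw [map_hybrid_eq_pi μ S V hS hV hind hlaw m]
  have h := map_hybrid_eq_pi μ S V hS hV hind hlaw ∅
  have e : (fun ω => hybrid (∅ : Finset (Fin n)) (S ω) (V ω)) = V := by
    funext ω e
    simp [hybrid]
  rw [e] at h
  exact h.symm

end Claimed.Agent.R051
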