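import Claimed.Agent.R051.Rule

/-!
# Row 51: measurability and bounds for rewards
-/

set_option autoImplicit false

namespace Claimed.Agent.R051

open MeasureTheory ProbabilityTheory
open Claims.C0091.MatroidProphet
open scoped BigOperators

variable {n bits : ℕ}

theorem measurable_history_fixed (π : ArrivalOrder n) (k : Fin n) :
    Measurable (fun v : Weights n => history v π k) := by
  refine measurable_pi_lambda _ (fun j => ?_)
  unfold history
  exact measurable_const.prodMk (measurable_pi_apply _)

theorem measurable_decisionAt_fixed (A : OnlineRule n bits) (π : ArrivalOrder n) (k : Fin n) :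
    Measurable (fun x : Seed bits × (Weights n × Weights n) =>
      decisionAt A x.1 x.2.1 x.2.2 π k) := by
  unfold decisionAt
  have h : Measurable (fun x : Seed bits × (Weights n × Weights n) =>
      ((x.1, (x.2.1, history x.2.2 π k)) : Seed bits × (Weights n × History n k))) :=
    measurable_fst.prodMk ((measurable_fst.comp measurable_snd).prodMk
      ((measurable_history_fixed π k).comp (measurable_snd.comp measurable_snd)))
  exact (A.measurable_decide k).comp h

theorem reward_eq_sum_ite (A : OnlineRule n bits) (r : Seed bits) (s v : Weights n)
    (π : ArrivalOrder n) :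
    reward A r s v π =
      ∑ e : Fin n, if decisionAt A r s v π (π.symm e) = true then v e else 0 := by
  classical
  unfold reward accepted acceptedThrough
  rw [Finset.sum_filter]
  refine Finset.sum_congr rfl (fun e _ => ?_)
  simp [(π.symm e).isLt]

theorem measurable_reward_fixed (A : OnlineRule n bits) (π : ArrivalOrder n) :
    Measurable (fun x : Seed bits × (Weights n × Weights n) =>
      reward A x.1 x.2.1 x.2.2 π) := by
  simp only [reward_eq_sum_ite]
  refine Finset.measurable_sum _ (fun e _ => ?_)
  refine Measurable.ite ?_ ((measurable_pi_apply e).comp (measurable_snd.comp measurable_snd))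
    measurable_const
  exact (measurable_decisionAt_fixed A π (π.symm e)) (MeasurableSet.of_discrete (s := {true}))

theorem measurable_reward (A : OnlineRule n bits) :
    Measurable (fun x : (Seed bits × (Weights n × Weights n)) × ArrivalOrder n =>
      reward A x.1.1 x.1.2.1 x.1.2.2 x.2) :=
  measurable_from_prod_countable_left (fun π => measurable_reward_fixed A π)

theorem hiddenReward_eq_reward (A : HiddenRule n bits) (r : Seed bits) (w : Weights n)
    (π : ArrivalOrder n) : hiddenReward A r w π = reward (hybridRule A) r w w π := by
  rw [reward_hybridRule, hybrid_self]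

theorem measurable_hiddenReward (A : HiddenRule n bits) (r : Seed bits) (π : ArrivalOrder n) :
    Measurable (fun w : Weights n => hiddenReward A r w π) := by
  have e : (fun w : Weights n => hiddenReward A r w π) =
    (fun x : Seed bits × (Weights n × Weights n) =>
      reward (hybridRule A) x.1 x.2.1 x.2.2 π) ∘ (fun w : Weights n =>
      ((r, (w, w)) : Seed bits × (Weights n × Weights n))) := by
    funext w
    exact hiddenReward_eq_reward A r w π
  rw [e]
  have h : Measurable (fun w : Weights n =>
      ((r, (w, w)) : Seed bits × (Weights n × Weights n))) :=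
    measurable_const.prodMk (measurable_id.prodMk measurable_id)
  exact (measurable_reward_fixed (hybridRule A) π).comp h

theorem measurable_hiddenWorstReward (A : HiddenRule n bits) (r : Seed bits) :
    Measurable (fun w : Weights n => hiddenWorstReward A w r) := by
  classical
  unfold hiddenWorstReward
  have key : ∀ (T : Finset (ArrivalOrder n)) (hT : T.Nonempty),
      Measurable (fun w : Weights n => T.inf' hT (hiddenReward A r w)) := by
    intro T hT
    induction hT using Finset.Nonempty.cons_induction with
    | singleton a => simpa using measurable_hiddenReward A r a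
    | cons a s ha hs ih =>
      simp only [Finset.inf'_cons hs]
      exact (measurable_hiddenReward A r a).inf ih
  exact key _ _

theorem hiddenWorstReward_le (A : HiddenRule n bits) (r : Seed bits) (w : Weights n)
    (π : ArrivalOrder n) : hiddenWorstReward A w r ≤ hiddenReward A r w π := by
  classical
  unfold hiddenWorstReward
  exact Finset.inf'_le _ (Finset.mem_univ π)

theorem hiddenReward_nonneg (A : HiddenRule n bits) (r : Seed bits) {w : Weights n}
    (hw : ∀ e, 0 ≤ w e) (π : ArrivalOrder n) : 0 ≤ hiddenReward A r w π := by
  unfold hiddenReward
  exact Finset.sum_nonneg (fun e _ => hw e)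

theorem hiddenWorstReward_nonneg (A : HiddenRule n bits) (r : Seed bits) {w : Weights n}
    (hw : ∀ e, 0 ≤ w e) : 0 ≤ hiddenWorstReward A w r := by
  classical
  unfold hiddenWorstReward
  exact Finset.le_inf' _ _ (fun π _ => hiddenReward_nonneg A r hw π)

theorem hiddenReward_le_optimum (M : Matroid (Fin n)) (A : HiddenRule n bits)
    (hf : ∀ (w : Weights n), (∀ e, 0 ≤ w e) →
        ∀ (r : Seed bits) (π : ArrivalOrder n) (t : ℕ),
          M.Indep (hiddenAcceptedThrough A r w π t : Set (Fin n)))
    (r : Seed bits) {w : Weights n} (hw : ∀ e, 0 ≤ w e) (π : ArrivalOrder n) :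
    hiddenReward A r w π ≤ optimum M w :=
  sum_le_optimum M w _ (hf w hw r π n)

theorem hiddenWorstReward_le_optimum (M : Matroid (Fin n)) (A : HiddenRule n bits)
    (hf : ∀ (w : Weights n), (∀ e, 0 ≤ w e) →
        ∀ (r : Seed bits) (π : ArrivalOrder n) (t : ℕ),
          M.Indep (hiddenAcceptedThrough A r w π t : Set (Fin n)))
    (r : Seed bits) {w : Weights n} (hw : ∀ e, 0 ≤ w e) :
    hiddenWorstReward A w r ≤ optimum M w :=
  (hiddenWorstReward_le A r w 1).trans (hiddenReward_le_optimum M A hf r hw 1)

end Claimed.Agent.R051
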