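import Claimed.Agent.R051.Transfer

/-!
# Row 51: a per-element sufficient condition for `HiddenCrux c`

It suffices that, for every nonnegative weight vector, every element of some optimal set is
accepted *for all arrival orders simultaneously* on a seed event of probability at least `c`.
-/

set_option autoImplicit false

namespace Claimed.Agent.R051

open MeasureTheory ProbabilityTheory
open Claims.C0091.MatroidProphet
open scoped BigOperators

variable {n bits : ℕ}

/-- Seeds for which `e` is accepted whatever the arrival order. -/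
def sureSeeds (A : HiddenRule n bits) (w : Weights n) (e : Fin n) : Set (Seed bits) :=
  {r | ∀ π : ArrivalOrder n, e ∈ hiddenAcceptedThrough A r w π n}

/-- The per-element form of the crux. -/
def PerElementCrux (c : ℝ) : Prop :=
  ∀ (n : ℕ) (M : Matroid (Fin n)), M.E = Set.univ →
    ∃ (bits : ℕ) (ν : Measure (Seed bits)), IsProbabilityMeasure ν ∧
    ∃ (A : HiddenRule n bits),
      (∀ (w : Weights n), (∀ e, 0 ≤ w e) →
        ∀ (r : Seed bits) (π : ArrivalOrder n) (t : ℕ),
          M.Indep (hiddenAcceptedThrough A r w π t : Set (Fin n))) ∧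
      ∀ (w : Weights n), (∀ e, 0 ≤ w e) →
        ∃ I : Finset (Fin n), optimum M w ≤ ∑ e ∈ I, w e ∧
          ∀ e ∈ I, c ≤ ν.real (sureSeeds A w e)

theorem measureReal_eq_sum_ite (ν : Measure (Seed bits)) [IsProbabilityMeasure ν]
    (G : Set (Seed bits)) [DecidablePred (· ∈ G)] :
    ν.real G = ∑ r : Seed bits, ν.real {r} * (if r ∈ G then (1 : ℝ) else 0) := by
  rw [← integral_seed_eq_sum]
  have : (fun r : Seed bits => if r ∈ G then (1 : ℝ) else 0) = Set.indicator G (fun _ => 1) := by
    funext r
    simp [Set.indicator]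
  rw [this, integral_indicator (MeasurableSet.of_discrete)]
  simp

theorem sum_sure_le_hiddenWorstReward (A : HiddenRule n bits) {w : Weights n}
    (hw : ∀ e, 0 ≤ w e) (I : Finset (Fin n)) (r : Seed bits)
    [∀ e, DecidablePred (· ∈ sureSeeds A w e)] :
    ∑ e ∈ I, w e * (if r ∈ sureSeeds A w e then (1 : ℝ) else 0) ≤ hiddenWorstReward A w r := by
  classical
  unfold hiddenWorstReward
  refine Finset.le_inf' _ _ (fun π _ => ?_)
  unfold hiddenReward
  have h1 : ∑ e ∈ I, w e * (if r ∈ sureSeeds A w e then (1 : ℝ) else 0) =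
      ∑ e ∈ I.filter (fun e => r ∈ sureSeeds A w e), w e := by
    rw [Finset.sum_filter]
    refine Finset.sum_congr rfl (fun e _ => ?_)
    split_ifs <;> simp
  rw [h1]
  refine Finset.sum_le_sum_of_subset_of_nonneg ?_ (fun e _ _ => hw e)
  intro e he
  exact (Finset.mem_filter.1 he).2 π

theorem hiddenCrux_of_perElement {c : ℝ} (hc : 0 ≤ c) (h : PerElementCrux c) : HiddenCrux c := by
  classical
  intro n M hE
  obtain ⟨bits, ν, hν, A, hf, hval⟩ := h n M hE
  refine ⟨bits, ν, hν, A, hf, fun w hw => ?_⟩
  obtain ⟨I, hI, hIc⟩ := hval w hw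
  rw [integral_seed_eq_sum]
  calc c * optimum M w ≤ c * ∑ e ∈ I, w e := mul_le_mul_of_nonneg_left hI hc
    _ = ∑ e ∈ I, w e * c := by
        rw [Finset.mul_sum]
        exact Finset.sum_congr rfl (fun e _ => mul_comm _ _)
    _ ≤ ∑ e ∈ I, w e * ν.real (sureSeeds A w e) :=
        Finset.sum_le_sum (fun e he => mul_le_mul_of_nonneg_left (hIc e he) (hw e))
    _ = ∑ r : Seed bits, ν.real {r} *
          ∑ e ∈ I, w e * (if r ∈ sureSeeds A w e then (1 : ℝ) else 0) := by
        simp_rw [measureReal_eq_sum_ite ν (sureSeeds A w _), Finset.mul_sum]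
        rw [Finset.sum_comm]
        refine Finset.sum_congr rfl (fun r _ => Finset.sum_congr rfl (fun e _ => ?_))
        ring
    _ ≤ ∑ r : Seed bits, ν.real {r} * hiddenWorstReward A w r :=
        Finset.sum_le_sum (fun r _ => mul_le_mul_of_nonneg_left
          (sum_sure_le_hiddenWorstReward A hw I r) measureReal_nonneg)

end Claimed.Agent.R051
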