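import Claimed.Agent.R051.Hybrid

/-!
# Row 51: the hybrid online rule, its measurability, accepted sets and reward
-/

set_option autoImplicit false

namespace Claimed.Agent.R051

open MeasureTheory ProbabilityTheory
open Claims.C0091.MatroidProphet
open scoped BigOperators

variable {n bits : ℕ}

theorem measurable_eval_index : Measurable (fun p : Weights n × Fin n => p.1 p.2) :=
  measurable_from_prod_countable_left (fun i => measurable_pi_apply i)

theorem measurable_observed_fixed (A : HiddenRule n bits) (r : Seed bits) :
    Measurable (fun s : Weights n => observed A r s) := by
  refine measurable_pi_lambda _ (fun e => ?_)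
  unfold observed
  by_cases he : e ∈ A.mask r
  · simpa [he] using measurable_pi_apply e
  · simp [he]

theorem measurable_hybridHistory_fixed (m : Finset (Fin n)) (k : Fin n) :
    Measurable (fun p : Weights n × History n k => hybridHistory m p.1 p.2) := by
  refine measurable_pi_lambda _ (fun j => ?_)
  unfold hybridHistory
  have h1 : Measurable (fun p : Weights n × History n k => (p.2 j).1) :=
    ((measurable_pi_apply j).comp measurable_snd).fst
  have h2 : Measurable (fun p : Weights n × History n k => (p.2 j).2) :=
    ((measurable_pi_apply j).comp measurable_snd).snd
  have h3 : Measurable (fun p : Weights n × History n k => p.1 (p.2 j).1) :=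
    measurable_eval_index.comp (measurable_fst.prodMk h1)
  refine h1.prodMk (Measurable.ite ?_ h3 h2)
  exact h1 (MeasurableSet.of_discrete (s := {e | e ∈ m}))

theorem measurable_hybridDecide (A : HiddenRule n bits) (k : Fin n) :
    Measurable (fun x : Seed bits × (Weights n × History n k) =>
      hybridDecide A k x.1 x.2.1 x.2.2) := by
  refine measurable_from_prod_countable_right (fun r => ?_)
  unfold hybridDecide
  have h1 : Measurable (fun p : Weights n × History n k => (p.2 (Fin.last k.val)).1) :=
    ((measurable_pi_apply _).comp measurable_snd).fst
  refine Measurable.ite (h1 (MeasurableSet.of_discrete (s := {e | e ∈ A.mask r})))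
    measurable_const ?_
  have h2 : Measurable (fun p : Weights n × History n k =>
      ((r, (observed A r p.1, hybridHistory (A.mask r) p.1 p.2)) :
        Seed bits × (Weights n × History n k))) :=
    measurable_const.prodMk
      (((measurable_observed_fixed A r).comp measurable_fst).prodMk
        (measurable_hybridHistory_fixed (A.mask r) k))
  exact (A.core.measurable_decide k).comp h2

/-- The one-sample online rule built from a hidden rule. -/
noncomputable def hybridRule (A : HiddenRule n bits) : OnlineRule n bits where
  decide := hybridDecide A
  measurable_decide := measurable_hybridDecide A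

theorem decisionAt_hybridRule (A : HiddenRule n bits) (r : Seed bits)
    (s v : Weights n) (π : ArrivalOrder n) (k : Fin n) :
    decisionAt (hybridRule A) r s v π k =
      if π k ∈ A.mask r then false
      else decisionAt A.core r (observed A r (hybrid (A.mask r) s v))
        (hybrid (A.mask r) s v) π k :=
  hybridDecide_history A k r s v π

theorem acceptedThrough_hybridRule (A : HiddenRule n bits) (r : Seed bits)
    (s v : Weights n) (π : ArrivalOrder n) (t : ℕ) :
    acceptedThrough (hybridRule A) r s v π t =
      hiddenAcceptedThrough A r (hybrid (A.mask r) s v) π t := by
  classical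
  ext e
  unfold hiddenAcceptedThrough acceptedThrough
  simp only [Finset.mem_filter, Finset.mem_univ, true_and, Finset.mem_sdiff]
  rw [decisionAt_hybridRule]
  simp only [Equiv.apply_symm_apply]
  by_cases he : e ∈ A.mask r <;> simp [he]

theorem reward_hybridRule (A : HiddenRule n bits) (r : Seed bits)
    (s v : Weights n) (π : ArrivalOrder n) :
    reward (hybridRule A) r s v π = hiddenReward A r (hybrid (A.mask r) s v) π := by
  classical
  unfold reward accepted hiddenReward
  rw [acceptedThrough_hybridRule]
  refine Finset.sum_congr rfl (fun e he => ?_)
  have : e ∉ A.mask r := by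
    unfold hiddenAcceptedThrough at he
    exact (Finset.mem_sdiff.1 he).2
  rw [hybrid_apply_of_notMem _ _ _ this]

theorem feasible_hybridRule (M : Matroid (Fin n)) (A : HiddenRule n bits)
    (hf : ∀ (w : Weights n), (∀ e, 0 ≤ w e) →
        ∀ (r : Seed bits) (π : ArrivalOrder n) (t : ℕ),
          M.Indep (hiddenAcceptedThrough A r w π t : Set (Fin n))) :
    Feasible M (hybridRule A) := by
  intro r s v π t hs hv
  rw [acceptedThrough_hybridRule]
  exact hf _ (hybrid_nonneg _ hs hv) r π t

end Claimed.Agent.R051
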