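import Claimed.Agent.R051.Integral

/-!
# Row 51: splitting the expectation over the (finitely many) seeds
-/

set_option autoImplicit false
set_option linter.unusedSectionVars false

namespace Claimed.Agent.R051

open MeasureTheory ProbabilityTheory
open Claims.C0091.MatroidProphet
open scoped BigOperators

universe u

variable {n bits : ℕ}

section chain

variable {Ω : Type u} [MeasurableSpace Ω] (μ : Measure Ω) [IsProbabilityMeasure μ]

/-- General splitting lemma: if `X` is independent of the finite-valued `R`, then
`E[G (R) (X)] = ∑ r, P(R = r) * E[G r X]`. -/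
theorem integral_split_seed {𝓧 : Type*} [MeasurableSpace 𝓧] (X : Ω → 𝓧) (R : Ω → Seed bits)
    (hX : Measurable X) (hR : Measurable R) (hXR : IndepFun X R μ)
    (G : Seed bits → 𝓧 → ℝ) (hG : ∀ r, Measurable (G r))
    (hGi : ∀ r, Integrable (fun ω => G r (X ω)) μ) :
    ∫ ω, G (R ω) (X ω) ∂μ = ∑ r : Seed bits, (Measure.map R μ).real {r} * ∫ ω, G r (X ω) ∂μ := by
  classical
  have hsum : ∀ ω, G (R ω) (X ω) =
      ∑ r : Seed bits, (if R ω = r then (1 : ℝ) else 0) * G r (X ω) := by
    intro ω
    simp
  have hindm : ∀ r : Seed bits, Measurable (fun q : Seed bits => if q = r then (1 : ℝ) else 0) :=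
    fun r => measurable_of_countable _
  have hint : ∀ r : Seed bits,
      Integrable (fun ω => (if R ω = r then (1 : ℝ) else 0) * G r (X ω)) μ := by
    intro r
    refine (hGi r).bdd_mul (c := 1) ((hindm r).comp hR).aestronglyMeasurable ?_
    refine Filter.Eventually.of_forall (fun ω => ?_)
    by_cases h : R ω = r <;> simp [h]
  simp_rw [hsum]
  rw [integral_finsetSum _ (fun r _ => hint r)]
  refine Finset.sum_congr rfl (fun r _ => ?_)
  have hindep : IndepFun ((fun q : Seed bits => if q = r then (1 : ℝ) else 0) ∘ R)
      ((G r) ∘ X) μ := hXR.symm.comp (hindm r) (hG r)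
  have h1 := hindep.integral_fun_mul_eq_mul_integral
    ((hindm r).comp hR).aestronglyMeasurable ((hG r).comp hX).aestronglyMeasurable
  have h2 : ∫ ω, ((fun q : Seed bits => if q = r then (1 : ℝ) else 0) ∘ R) ω ∂μ =
      (Measure.map R μ).real {r} := by
    have : (fun ω => ((fun q : Seed bits => if q = r then (1 : ℝ) else 0) ∘ R) ω) =
        Set.indicator (R ⁻¹' {r}) (fun _ => (1 : ℝ)) := by
      funext ω
      by_cases h : R ω = r <;> simp [Set.indicator, h]
    rw [this, integral_indicator (hR (measurableSet_singleton r))]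
    simp [map_measureReal_apply hR (measurableSet_singleton r)]
  simp only [Function.comp] at h1 h2
  rw [h1, h2]

end chain

end Claimed.Agent.R051
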